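import Vale.Agent.P011.H673.NS.Atl

/-!
# Reduced norms of elements close to one, from the tower lemma

`B` is a division algebra of degree `b` over its centre `K`, `nr` an ultrametric submultiplicative
norm on `B` which is compatible with the subring `OT` of `K`.  Every element of `K` close to one is
the reduced norm of an element of `B` close to one.
-/

open Module Polynomial

namespace Vale.Agent.P011.H673.NS

open Vale.Agent.P011.H699.Odd (Near TN)

variable {K : Type} [Field K] {OT : Subring K}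

/-- `OT` is integrally closed, with field of fractions `K`. -/
structure OTIn (OT : Subring K) : Prop where
  frac : ∀ a : K, ∃ d ∈ OT, d ≠ 0 ∧ d * a ∈ OT
  int : ∀ a : K, IsIntegral OT a → a ∈ OT

/-- An ultrametric submultiplicative norm which is compatible with `OT`. -/
structure NrOT (OT : Subring K) {B : Type} [Ring B] [Algebra K B] (nr : B → ℝ) : Prop where
  nonneg : ∀ x, 0 ≤ nr x
  zero : nr 0 = 0
  neg : ∀ x, nr (-x) = nr x
  add : ∀ x y, nr (x + y) ≤ max (nr x) (nr y)
  mul : ∀ x y, nr (x * y) ≤ nr x * nr y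
  smul : ∀ a ∈ OT, ∀ x, nr (a • x) ≤ nr x
  small : ∀ δ : ℝ, 0 < δ → ∃ d ∈ OT, d ≠ 0 ∧ ∀ x, nr (d • x) ≤ δ * nr x

section

variable {B : Type} [Ring B] [Algebra K B] {nr : B → ℝ}

theorem NrOT.sum (h : NrOT OT nr) {κ : Type*} (s : Finset κ) (f : κ → B) {C : ℝ} (hC : 0 ≤ C)
    (hf : ∀ i ∈ s, nr (f i) ≤ C) : nr (∑ i ∈ s, f i) ≤ C := by
  classical
  induction s using Finset.induction_on with
  | empty => rw [Finset.sum_empty, h.zero]; exact hC
  | insert a s ha ih =>
    rw [Finset.sum_insert ha]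
    exact (h.add _ _).trans (max_le (hf a (Finset.mem_insert_self a s))
      (ih fun i hi => hf i (Finset.mem_insert_of_mem hi)))

/-- The integral elements of a finite separable extension are bounded. -/
theorem NrOT.bdd (h : NrOT OT nr) (hO : OTIn OT) {E : Type} [Field E] [Algebra K E]
    [FiniteDimensional K E] [Algebra.IsSeparable K E] (φ : E →ₐ[K] B) :
    ∃ C : ℝ, 0 ≤ C ∧ ∀ a : E, IsIntegral OT a → nr (φ a) ≤ C := by
  classical
  have hfr : IsFractionRing OT K := by
    refine IsFractionRing.of_field OT K fun z => ?_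
    obtain ⟨d, hd, hd0, hda⟩ := hO.frac z
    refine ⟨⟨d * z, hda⟩, ⟨d, hd⟩, ?_⟩
    change z = (d * z) / d
    rw [mul_div_cancel_left₀ _ hd0]
  set β := Module.finBasis K E with hβ
  -- common denominators of the basis
  have h1 : ∀ i, ∃ d ∈ OT, d ≠ 0 ∧ IsIntegral OT (d • β i) := by
    intro i
    obtain ⟨m, hm⟩ := IsIntegral.exists_multiple_integral_of_isLocalization
      (R := OT) (Rₘ := K) (nonZeroDivisors OT) (β i) (IsIntegral.of_finite K _)
    refine ⟨((m : OT) : K), (m : OT).2, ?_, hm⟩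
    have h2 : (m : OT) ≠ 0 := nonZeroDivisors.ne_zero m.2
    exact fun h3 => h2 (Subtype.ext h3)
  choose d hd hd0 hdi using h1
  set β' := β.traceDual with hβ'
  refine ⟨∑ i, nr (φ ((d i)⁻¹ • β' i)), Finset.sum_nonneg fun i _ => h.nonneg _, fun a ha => ?_⟩
  have h2 : a = ∑ i, (d i * Algebra.trace K E (a * β i)) • ((d i)⁻¹ • β' i) := by
    conv_lhs => rw [← β'.sum_repr a]
    refine Finset.sum_congr rfl fun i _ => ?_
    rw [hβ', Module.Basis.traceDual_repr_apply, Algebra.traceForm_apply, smul_smul,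
      mul_right_comm, mul_inv_cancel₀ (hd0 i), one_mul]
  rw [h2, map_sum]
  refine h.sum _ _ (Finset.sum_nonneg fun i _ => h.nonneg _) fun i _ => ?_
  rw [map_smul]
  have h3 : d i * Algebra.trace K E (a * β i) ∈ OT := by
    have h4 : d i * Algebra.trace K E (a * β i) = Algebra.trace K E (a * (d i • β i)) := by
      rw [mul_smul_comm, map_smul, smul_eq_mul]
    rw [h4]
    exact hO.int _ (Algebra.isIntegral_trace (ha.mul (hdi i)))
  exact (h.smul _ h3 _).trans
    (Finset.single_le_sum (f := fun i => nr (φ ((d i)⁻¹ • β' i))) (fun i _ => h.nonneg _)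
      (Finset.mem_univ i))

/-- Near elements of a finite separable extension are close to one in `B`. -/
theorem NrOT.near (h : NrOT OT nr) (hO : OTIn OT) {E : Type} [Field E] [Algebra K E]
    [FiniteDimensional K E] [Algebra.IsSeparable K E] (φ : E →ₐ[K] B) {ε : ℝ} (hε : 0 < ε) :
    ∃ d ∈ OT, d ≠ 0 ∧ ∀ z : E, Near OT E d z → nr (φ z - 1) < ε := by
  obtain ⟨C, hC, hb⟩ := h.bdd hO φ
  obtain ⟨d, hd, hd0, hs⟩ := h.small (ε / (C + 1)) (by positivity)
  refine ⟨d, hd, hd0, ?_⟩
  rintro z ⟨a, ha, rfl⟩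
  have h1 : φ (1 + algebraMap K E d * a) - 1 = d • φ a := by
    rw [map_add, map_one, add_sub_cancel_left, map_mul, AlgHom.commutes, Algebra.smul_def]
  rw [h1]
  calc nr (d • φ a) ≤ ε / (C + 1) * nr (φ a) := hs _
    _ ≤ ε / (C + 1) * C := mul_le_mul_of_nonneg_left (hb a ha) (by positivity)
    _ < ε / (C + 1) * (C + 1) := mul_lt_mul_of_pos_left (by linarith) (by positivity)
    _ = ε := by field_simp

end

section

variable {B : Type} [DivisionRing B] [Algebra K B] {nr : B → ℝ}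

theorem NrOT.inv_le (h : NrOT OT nr) {u : Bˣ} (hu : nr ((u : B) - 1) < 1) :
    nr (((u⁻¹ : Bˣ) : B) - 1) ≤ nr ((u : B) - 1) := by
  set v : B := ((u⁻¹ : Bˣ) : B) - 1 with hv
  have h1 : v = -((u : B) - 1) + -(((u : B) - 1) * v) := by
    have h2 : (u : B) * ((u⁻¹ : Bˣ) : B) = 1 := Units.mul_inv u
    rw [hv]
    have h3 : ((u : B) - 1) * (((u⁻¹ : Bˣ) : B) - 1)
        = (u : B) * ((u⁻¹ : Bˣ) : B) - (u : B) - ((u⁻¹ : Bˣ) : B) + 1 := by noncomm_ring
    rw [h3, h2]
    noncomm_ring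
  have h4 : nr v ≤ max (nr ((u : B) - 1)) (nr ((u : B) - 1) * nr v) := by
    conv_lhs => rw [h1]
    refine (h.add _ _).trans (max_le_max ?_ ?_)
    · rw [h.neg]
    · rw [h.neg]; exact h.mul _ _
  rcases le_max_iff.mp h4 with h5 | h5
  · exact h5
  · have h6 : nr v = 0 := by
      by_contra h7
      have h8 : 0 < nr v := lt_of_le_of_ne (h.nonneg _) (Ne.symm h7)
      nlinarith
    rw [h6]
    exact h.nonneg _

/-- The units which are close to one. -/
def Vε (h : NrOT OT nr) {ε : ℝ} (hε : 0 < ε) (hε1 : ε ≤ 1) : Subgroup Bˣ where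
  carrier := {u | nr ((u : B) - 1) < ε}
  one_mem' := by
    change nr (((1 : Bˣ) : B) - 1) < ε
    rw [Units.val_one, sub_self, h.zero]
    exact hε
  mul_mem' := by
    intro u v hu hv
    change nr ((u : B) - 1) < ε at hu
    change nr ((v : B) - 1) < ε at hv
    change nr (((u * v : Bˣ) : B) - 1) < ε
    have h1 : ((u * v : Bˣ) : B) - 1 = ((u : B) - 1) * ((v : B) - 1) + (((u : B) - 1)
        + ((v : B) - 1)) := by
      rw [Units.val_mul]; noncomm_ring
    rw [h1]
    refine (h.add _ _).trans_lt (max_lt ?_ ((h.add _ _).trans_lt (max_lt hu hv)))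
    refine (h.mul _ _).trans_lt ?_
    calc nr ((u : B) - 1) * nr ((v : B) - 1) ≤ nr ((u : B) - 1) * 1 :=
          mul_le_mul_of_nonneg_left (hv.le.trans hε1) (h.nonneg _)
      _ = nr ((u : B) - 1) := mul_one _
      _ < ε := hu
  inv_mem' := by
    intro u hu
    change nr ((u : B) - 1) < ε at hu
    change nr (((u⁻¹ : Bˣ) : B) - 1) < ε
    exact (h.inv_le (hu.trans_le hε1)).trans_lt hu

/-- The reduced norm of a division algebra of degree `b`. -/
structure RnN {B : Type} [DivisionRing B] [Algebra K B] (b : ℕ) (N : B →* K) : Prop where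
  alg : ∀ a : K, N (algebraMap K B a) = a ^ b
  fld : ∀ (E : Type) [Field E] [Algebra K E] (φ : E →ₐ[K] B) (y : E), finrank K E = b →
    N (φ y) = Algebra.norm K y

/-- The elements of degree `b` of `B` give good fields. -/
theorem goodFor_of {J : Type} {Sp : J → K[X] → Prop} [FiniteDimensional K B] (h : NrOT OT nr)
    (hO : OTIn OT) {b : ℕ} {N : B →* K} (hN : RnN b N) {ε : ℝ} (hε : 0 < ε) (hε1 : ε ≤ 1) {j : J}
    (hspl : ∃ t : B, (minpoly K t).natDegree = b ∧ (minpoly K t).Separable ∧ Sp j (minpoly K t)) :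
    GoodFor OT ((Vε h hε hε1).map (Units.map N)) Sp j := by
  obtain ⟨t, hdeg, hsep, hSp⟩ := hspl
  have hint : IsIntegral K t := IsIntegral.of_finite K t
  have hirr : Irreducible (minpoly K t) := minpoly.irreducible hint
  have hfact : Fact (Irreducible (minpoly K t)) := ⟨hirr⟩
  have hne : minpoly K t ≠ 0 := hirr.ne_zero
  let E := AdjoinRoot (minpoly K t)
  let θ : E := AdjoinRoot.root (minpoly K t)
  have hE : FiniteDimensional K E := (AdjoinRoot.powerBasis hne).finite
  have hfr : finrank K E = b := by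
    rw [(AdjoinRoot.powerBasis hne).finrank, AdjoinRoot.powerBasis_dim, hdeg]
  have hθm : minpoly K θ = minpoly K t := by
    have h1 := AdjoinRoot.minpoly_root hne
    rw [(minpoly.monic hint).leadingCoeff, inv_one, C_1, mul_one] at h1
    exact h1
  have hθ : IntermediateField.adjoin K {θ} = ⊤ := by
    have h1 : Algebra.adjoin K ({θ} : Set E) = ⊤ := AdjoinRoot.adjoinRoot_eq_top
    rw [eq_top_iff]
    intro x _
    have h2 : x ∈ Algebra.adjoin K ({θ} : Set E) := by rw [h1]; trivial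
    exact IntermediateField.algebra_adjoin_le_adjoin K _ h2
  have hsE : Algebra.IsSeparable K E := by
    have h1 : IsSeparable K θ := by unfold IsSeparable; rw [hθm]; exact hsep
    have h2 : Algebra.IsSeparable K (IntermediateField.adjoin K {θ}) :=
      (IntermediateField.isSeparable_adjoin_simple_iff_isSeparable (F := K) (E := E)).mpr h1
    rw [hθ] at h2
    exact AlgEquiv.Algebra.isSeparable (IntermediateField.topEquiv (F := K) (E := E))
  have hker : ∀ a : K[X], a ∈ Ideal.span {minpoly K t} → aeval t a = 0 := by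
    intro a ha
    obtain ⟨c, rfl⟩ := Ideal.mem_span_singleton'.1 ha
    rw [map_mul, minpoly.aeval, mul_zero]
  let φ : E →ₐ[K] B := Ideal.Quotient.liftₐ _ (aeval t) hker
  obtain ⟨d, hd, hd0, hn⟩ := h.near hO φ hε
  have hSp' : Sp j (minpoly K θ) := by rw [hθm]; exact hSp
  refine ⟨E, inferInstance, inferInstance, θ, hE, hsE, hθ, hSp', d, hd, hd0,
    fun z hz hnz => ?_⟩
  have hφz : φ z ≠ 0 := (_root_.map_ne_zero _).mpr hz
  refine ⟨Units.map N (Units.mk0 (φ z) hφz), Subgroup.mem_map.mpr ⟨Units.mk0 (φ z) hφz, ?_, rfl⟩,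
    ?_⟩
  · change nr (((Units.mk0 (φ z) hφz : Bˣ) : B) - 1) < ε
    rw [Units.val_mk0]
    exact hn z hnz
  · rw [Units.coe_map, Units.val_mk0]
    exact hN.fld E φ z hfr

/-- **Every element of the centre close to one is the reduced norm of an element close to one.** -/
theorem ns_of {J : Type} {Sp : J → K[X] → Prop} [FiniteDimensional K B] (h : NrOT OT nr)
    (hO : OTIn OT) {b : ℕ} (hb : b ≠ 0) {N : B →* K} (hN : RnN b N)
    (hatl : ∀ W : Subgroup Kˣ, (∀ j, GoodFor OT W Sp j) → ∀ p : ℕ, p.Prime → p ∣ b →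
      ∃ c ∈ OT, c ≠ 0 ∧ ∃ r : ℕ, ¬ p ∣ r ∧ ∀ x : Kˣ, Near OT K c (x : K) → x ^ r ∈ W)
    (hspl : ∀ j : J, ∃ t : B, (minpoly K t).natDegree = b ∧ (minpoly K t).Separable ∧
      Sp j (minpoly K t)) {ε : ℝ} (hε : 0 < ε) :
    ∃ c ∈ OT, c ≠ 0 ∧ ∀ x : K, x ≠ 0 → Near OT K c x →
      ∃ τ : B, τ ≠ 0 ∧ nr (τ - 1) < ε ∧ N τ = x := by
  have hε' : 0 < min ε 1 := lt_min hε one_pos
  set V := Vε h hε' (min_le_right _ _) with hV
  have hgood : ∀ j, GoodFor OT (V.map (Units.map N)) Sp j := fun j =>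
    goodFor_of h hO hN hε' (min_le_right _ _) (hspl j)
  have hpow : ∃ c ∈ OT, c ≠ 0 ∧ ∀ x : Kˣ, Near OT K c (x : K) →
      x ^ b ∈ V.map (Units.map N) := by
    obtain ⟨d, hd, hd0, hn⟩ := h.near hO (Algebra.ofId K B) hε'
    refine ⟨d, hd, hd0, fun x hx => ?_⟩
    have hx0 : algebraMap K B x ≠ 0 := (_root_.map_ne_zero _).mpr x.ne_zero
    refine Subgroup.mem_map.mpr ⟨Units.mk0 _ hx0, ?_, ?_⟩
    · change nr (((Units.mk0 _ hx0 : Bˣ) : B) - 1) < min ε 1
      rw [Units.val_mk0]
      exact hn _ hx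
    · refine Units.ext ?_
      rw [Units.coe_map, Units.val_mk0, Units.val_pow_eq_pow_val]
      exact hN.alg _
  obtain ⟨c, hc, hc0, hcx⟩ := mem_of_atl hb hpow (hatl _ hgood)
  refine ⟨c, hc, hc0, fun x hx hn => ?_⟩
  obtain ⟨τ, hτ, he⟩ := Subgroup.mem_map.mp (hcx (Units.mk0 x hx) hn)
  refine ⟨τ, τ.ne_zero, lt_of_lt_of_le hτ (min_le_left _ _), ?_⟩
  have h1 := congrArg Units.val he
  rwa [Units.coe_map, Units.val_mk0] at h1

end

end Vale.Agent.P011.H673.NS
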