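import Vale.Agent.P011.H673.NS.Fam
import Vale.Agent.P011.H327.TNnf2
import Vale.Agent.P011.H327.RnInst
import Vale.Agent.P011.H380.Good7.SplitMax

/-!
# Reduced norms of elements close to one over number fields, odd degree

Let `C` be a central division algebra of odd degree `b` over a number field `Z` and let `T` be a
finite set of finite places of `Z` outside of which `C` is split.  Every element of `Z` close to one
at `T` is the reduced norm of an element of `C` close to one at `T`.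
-/

open Module Polynomial NumberField IsDedekindDomain

namespace Vale.Agent.P011.H673.NS

open Vale.Agent.P011.Arith (Z0)
open Vale.Agent.P011.W (HasNrd Spl deg_pos)
open Vale.Agent.P011.H505.Wang (hasNrd_norm)
open Vale.Agent.P011.H699.Odd (Near TN)
open Vale.Agent.P011.H327.TN (exists_hasNrd Sp)

section rn

variable {K D : Type} [Field K] [Infinite K] [DivisionRing D] [Algebra K D]
  [FiniteDimensional K D] [Algebra.IsCentral K D] {n : ℕ}

/-- **The reduced norm as a homomorphism of monoids.** -/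
theorem exists_rnN (hdeg : finrank K D = n ^ 2) :
    ∃ N : D →* K, RnN n N ∧ ∀ x, HasNrd K n x (N x) := by
  choose N0 hN0 using fun w : D => exists_hasNrd (K := K) (D := D) hdeg w
  have huniq : ∀ (x : D) (y : K), HasNrd K n x y → N0 x = y := fun x y h =>
    W.HasNrd.unique hdeg (hN0 x) h
  let N : D →* K :=
    { toFun := N0
      map_one' := huniq 1 1 (fun Ω _ _ f => by rw [map_one, Matrix.det_one, map_one])
      map_mul' := fun x y => huniq _ _ ((hN0 x).mul (hN0 y)) }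
  refine ⟨N, ⟨fun a => huniq _ _ ?_, fun E _ _ φ y hE => huniq _ _ (hasNrd_norm hdeg hE φ y)⟩,
    hN0⟩
  intro Ω _ _ f
  rw [AlgHom.commutes]
  change (Matrix.scalar (Fin n) (algebraMap K Ω a)).det = _
  rw [Matrix.scalar_apply, Matrix.det_diagonal, Finset.prod_const, Finset.card_univ,
    Fintype.card_fin, map_pow]

end rn

section nf

variable {K : Type} [Field K] [NumberField K]

theorem adicAbv_le_iff (v : HeightOneSpectrum (𝓞 K)) (x y : K) :
    HeightOneSpectrum.adicAbv K v x ≤ HeightOneSpectrum.adicAbv K v y ↔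
      v.valuation K x ≤ v.valuation K y := by
  rw [HeightOneSpectrum.adicAbv_def, HeightOneSpectrum.adicAbv_def, NNReal.coe_le_coe]
  exact (WithZeroMulInt.toNNReal_strictMono
    (HeightOneSpectrum.one_lt_absNorm_nnreal v)).le_iff_le

/-- The family of the absolute values at the places of `T`. -/
noncomputable def aT (T : Finset (HeightOneSpectrum (𝓞 K))) (v : T) : AbsoluteValue K ℝ :=
  HeightOneSpectrum.adicAbv K v.1

theorem aT_ult (T : Finset (HeightOneSpectrum (𝓞 K))) (v : T) (x y : K) :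
    aT T v (x + y) ≤ max (aT T v x) (aT T v y) :=
  HeightOneSpectrum.adicAbv_add_le_max K v.1 x y

theorem OTa_aT (T : Finset (HeightOneSpectrum (𝓞 K))) :
    OTa (aT T) (aT_ult T) = Vale.Agent.P011.H327.TN.OT (T : Set (HeightOneSpectrum (𝓞 K))) := by
  ext x
  have h1 : ∀ v : T, aT T v x ≤ 1 ↔ v.1.valuation K x ≤ 1 := by
    intro v
    have h2 := adicAbv_le_iff v.1 x 1
    rw [map_one, map_one] at h2
    exact h2
  constructor
  · intro h v hv
    exact (h1 ⟨v, hv⟩).1 (h ⟨v, hv⟩)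
  · intro h v
    exact (h1 v).2 (h v.1 v.2)

/-- An element which is small at all the places of `T`. -/
theorem exists_lt_one (T : Finset (HeightOneSpectrum (𝓞 K))) :
    ∃ q : K, q ≠ 0 ∧ ∀ v ∈ T, v.valuation K q < 1 := by
  classical
  choose g hg0 hg using fun v : HeightOneSpectrum (𝓞 K) =>
    (Submodule.ne_bot_iff _).1 v.ne_bot
  refine ⟨((∏ v ∈ T, g v : 𝓞 K) : K), ?_, fun v hv => ?_⟩
  · have h1 : (∏ v ∈ T, g v : 𝓞 K) ≠ 0 := Finset.prod_ne_zero_iff.mpr fun v _ => hg v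
    exact_mod_cast h1
  · rw [HeightOneSpectrum.valuation_lt_one_iff_mem]
    rw [← Finset.mul_prod_erase _ _ hv]
    exact Ideal.mul_mem_right _ _ (hg0 v)

theorem exists_small (T : Finset (HeightOneSpectrum (𝓞 K))) {δ : ℝ} (hδ : 0 < δ) :
    ∃ d : K, d ≠ 0 ∧ ∀ v : T, aT T v d ≤ δ := by
  classical
  obtain ⟨q, hq0, hq⟩ := exists_lt_one T
  have h1 : ∀ v : T, aT T v q < 1 := by
    intro v
    by_contra hcon
    push Not at hcon
    have h2 := (adicAbv_le_iff v.1 1 q).1 (by rw [map_one]; exact hcon)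
    rw [map_one] at h2
    exact absurd (hq v.1 v.2) (not_lt.mpr h2)
  choose m hm using fun v : T => exists_pow_lt_of_lt_one hδ (h1 v)
  refine ⟨q ^ (Finset.univ.sup m), pow_ne_zero _ hq0, fun v => ?_⟩
  rw [map_pow]
  exact ((pow_le_pow_of_le_one ((aT T v).nonneg _) (h1 v).le
    (Finset.le_sup (Finset.mem_univ v))).trans_lt (hm v)).le

/-- The two-field norm lemma for the intermediate fields. -/
theorem tn_inter {TT : Set (HeightOneSpectrum (𝓞 K))} (hTT : TT.Finite) {J : Type}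
    (pl : J → Set (HeightOneSpectrum (𝓞 K)))
    (hJ : ∀ B : Finset (HeightOneSpectrum (𝓞 K)), (∀ V ∈ B, V ∉ TT) → ∃ j, ↑B ⊆ pl j)
    {Ω : Type} [Field Ω] [Algebra K Ω] {p : ℕ} (hp : p.Prime) (hp2 : p ≠ 2)
    (R R' : IntermediateField K Ω) (h : R ≤ R') [FiniteDimensional K R] [FiniteDimensional K R']
    {ζ : Ω} (hζ : IsPrimitiveRoot ζ p) (hζR : ζ ∈ R)
    (hG : IsGalois R (IntermediateField.extendScalars h))
    (hd : finrank R (IntermediateField.extendScalars h) = p)
    {q c : K} (hq0 : q ≠ 0) (hq : ∀ v ∈ TT, v.valuation K q < 1) (hc0 : c ≠ 0)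
    (hc : c ∈ Vale.Agent.P011.H327.TN.OT TT) :
    letI := (IntermediateField.inclusion h).toRingHom.toAlgebra
    TN (Vale.Agent.P011.H327.TN.OT TT) (Sp pl) R R' (q * (p : K) ^ 2 * c) c := by
  let i1 : Algebra R R' := (IntermediateField.inclusion h).toRingHom.toAlgebra
  have i2 : IsScalarTower K R R' := IsScalarTower.of_algebraMap_eq fun _ => rfl
  have i3 : NumberField R := NumberField.of_module_finite K R
  have i4 : NumberField R' := NumberField.of_module_finite K R'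
  let e : (IntermediateField.extendScalars h) ≃ₐ[R] R' :=
    { toFun := fun x => ⟨x.1, x.2⟩
      invFun := fun x => ⟨x.1, x.2⟩
      left_inv := fun _ => rfl
      right_inv := fun _ => rfl
      map_mul' := fun _ _ => rfl
      map_add' := fun _ _ => rfl
      commutes' := fun _ => rfl }
  have i5 : IsGalois R R' := IsGalois.of_algEquiv e
  have hd' : finrank R R' = p := by rw [← hd]; exact e.toLinearEquiv.finrank_eq.symm
  have hζ' : IsPrimitiveRoot (⟨ζ, hζR⟩ : R) p :=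
    IsPrimitiveRoot.of_map_of_injective (f := algebraMap R Ω) hζ (algebraMap R Ω).injective
  exact Vale.Agent.P011.H327.TN.tn_nf hTT pl hJ hp hp2 hd' hζ' hq0 hq hc0 hc

end nf

section main

variable {K C : Type} [Field K] [NumberField K] [DivisionRing C] [Algebra K C]
  [FiniteDimensional K C] [Algebra.IsCentral K C] {b N : ℕ}

/-- **(NS), number fields, real radii.** -/
theorem ns_nf_abv (hC : finrank K C = b ^ 2) (hodd : Odd b) {κ : Type} [Fintype κ]
    (β : Basis κ K C) (T : Finset (HeightOneSpectrum (𝓞 K)))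
    (hT : ∀ v : HeightOneSpectrum (𝓞 K), v ∉ T → Spl C b (algebraMap K (v.adicCompletion K)))
    {ε : ℝ} (hε : 0 < ε) :
    ∃ δ : ℝ, 0 < δ ∧ ∀ x : K, x ≠ 0 →
      (∀ v ∈ T, HeightOneSpectrum.adicAbv K v (x - 1) < δ) →
      ∃ τ : C, τ ≠ 0 ∧ (∀ v ∈ T, ∀ l, HeightOneSpectrum.adicAbv K v (β.repr (τ - 1) l) < ε) ∧
        HasNrd K b τ x := by
  classical
  have hb : b ≠ 0 := (deg_pos hC).ne'
  obtain ⟨Nm, hNm, hNrd⟩ := exists_rnN hC
  obtain ⟨q, hq0, hq⟩ := exists_lt_one T
  -- the sets of places outside `T`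
  let J : Type := {B : Finset (HeightOneSpectrum (𝓞 K)) // ∀ v ∈ B, v ∉ T}
  have hJne : Nonempty J := ⟨⟨∅, fun v hv => absurd hv (Finset.notMem_empty v)⟩⟩
  let pl : J → Set (HeightOneSpectrum (𝓞 K)) := fun j => (j.1 : Set (HeightOneSpectrum (𝓞 K)))
  have hJ : ∀ B : Finset (HeightOneSpectrum (𝓞 K)),
      (∀ V ∈ B, V ∉ (T : Set (HeightOneSpectrum (𝓞 K)))) → ∃ j, ↑B ⊆ pl j := fun B hB =>
    ⟨⟨B, fun v hv => by simpa using hB v hv⟩, subset_rfl⟩
  have hspl : ∀ j : J, ∃ t : C, (minpoly K t).natDegree = b ∧ (minpoly K t).Separable ∧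
      Sp pl j (minpoly K t) := by
    intro j
    obtain ⟨t, ht, h1⟩ := Vale.Agent.P011.H380.Good7.exists_split_max hC j.1
      (fun v hv => hT v (j.2 v hv))
    exact ⟨t, ht, (minpoly.irreducible (IsIntegral.of_finite K t)).separable,
      fun v hv => (h1 v hv).1⟩
  have hatl : ∀ W : Subgroup Kˣ, (∀ j, GoodFor (OTa (aT T) (aT_ult T)) W (Sp pl) j) →
      ∀ p : ℕ, p.Prime → p ∣ b → ∃ c ∈ OTa (aT T) (aT_ult T), c ≠ 0 ∧ ∃ r : ℕ, ¬ p ∣ r ∧
        ∀ x : Kˣ, Near (OTa (aT T) (aT_ult T)) K c (x : K) → x ^ r ∈ W := by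
    intro W hgood p hp hpb
    rw [OTa_aT] at hgood ⊢
    have hp2 : p ≠ 2 := by
      rintro rfl
      exact (Nat.not_even_iff_odd.2 hodd) (even_iff_two_dvd.2 hpb)
    have : NeZero (p : AlgebraicClosure K) := ⟨Nat.cast_ne_zero.2 hp.ne_zero⟩
    have : NeZero p := ⟨hp.ne_zero⟩
    obtain ⟨ζ, hζ⟩ := HasEnoughRootsOfUnity.exists_primitiveRoot (AlgebraicClosure K) p
    refine atlZ (Ω := AlgebraicClosure K) hgood hp hζ ?_
    intro R R' h hR hR' _ _ hζR hG hd c hc hc0
    exact ⟨q * (p : K) ^ 2 * c, mul_mem (mul_mem (fun v hv => (hq v hv).le)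
      (pow_mem (natCast_mem _ p) 2)) hc, mul_ne_zero (mul_ne_zero hq0
        (pow_ne_zero 2 (Nat.cast_ne_zero.2 hp.ne_zero))) hc0,
      tn_inter T.finite_toSet pl hJ hp hp2 R R' h hζ hζR hG hd hq0 hq hc0 hc⟩
  obtain ⟨δ, hδ, h⟩ := ns_fam (aT_ult T) (fun δ hδ => exists_small T hδ) β hb hNm hatl hspl hε
  refine ⟨δ, hδ, fun x hx hxT => ?_⟩
  obtain ⟨τ, hτ, hc, hN⟩ := h x hx fun v => hxT v.1 v.2
  exact ⟨τ, hτ, fun v hv l => hc ⟨v, hv⟩ l, hN ▸ hNrd τ⟩

/-- **(NS), number fields**: an element `x` of the centre close to one at `T` is the reduced norm of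
an element whose coordinates are close to those of one at `T`. -/
theorem ns_nf (hC : finrank K C = b ^ 2) (hodd : Odd b) {κ : Type} [Fintype κ]
    (β : Basis κ K C) (T : Finset (HeightOneSpectrum (𝓞 K)))
    (hT : ∀ v : HeightOneSpectrum (𝓞 K), v ∉ T → Spl C b (algebraMap K (v.adicCompletion K)))
    (γ : Z0) (hγ : γ ≠ 0) :
    ∃ c : K, (∀ v ∈ T, v.valuation K c ≤ 1) ∧ c ≠ 0 ∧ ∀ x : K, x ≠ 0 →
      (∀ v ∈ T, v.valuation K (x - 1) ≤ v.valuation K c) →
      ∃ τ : C, τ ≠ 0 ∧ (∀ v ∈ T, ∀ l, v.valuation K (β.repr (τ - 1) l) < γ) ∧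
        HasNrd K b τ x := by
  classical
  -- the radius
  obtain ⟨ε, hε, hεγ⟩ : ∃ ε : ℝ, 0 < ε ∧ ∀ v ∈ T, ∀ z : K,
      HeightOneSpectrum.adicAbv K v z < ε → v.valuation K z < γ := by
    have h1 : ∀ v : HeightOneSpectrum (𝓞 K), ∃ ε : ℝ, 0 < ε ∧ ∀ z : K,
        HeightOneSpectrum.adicAbv K v z < ε → v.valuation K z < γ := by
      intro v
      refine ⟨(WithZeroMulInt.toNNReal (HeightOneSpectrum.absNorm_ne_zero v) γ : NNReal), ?_,
        fun z hz => ?_⟩
      · exact_mod_cast WithZeroMulInt.toNNReal_pos (HeightOneSpectrum.absNorm_ne_zero v) hγ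
      · rw [HeightOneSpectrum.adicAbv_def, NNReal.coe_lt_coe] at hz
        exact (WithZeroMulInt.toNNReal_strictMono
          (HeightOneSpectrum.one_lt_absNorm_nnreal v)).lt_iff_lt.1 hz
    choose ε hε h2 using h1
    rcases T.eq_empty_or_nonempty with hT0 | hT0
    · exact ⟨1, one_pos, fun v hv => by rw [hT0] at hv; exact absurd hv (Finset.notMem_empty v)⟩
    · obtain ⟨v₀, hv₀, hmin⟩ := T.exists_min_image ε hT0
      exact ⟨ε v₀, hε v₀, fun v hv z hz => h2 v z (hz.trans_le (hmin v hv))⟩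
  obtain ⟨δ, hδ, h⟩ := ns_nf_abv hC hodd β T hT hε
  obtain ⟨c, hc0, hc⟩ := exists_small (K := K) T (δ := min 1 (δ / 2)) (by positivity)
  refine ⟨c, fun v hv => ?_, hc0, fun x hx hxT => ?_⟩
  · have h1 := (adicAbv_le_iff v c 1).1 (by
      rw [map_one]; exact (hc ⟨v, hv⟩).trans (min_le_left _ _))
    rwa [map_one] at h1
  · obtain ⟨τ, hτ, h1, h2⟩ := h x hx fun v hv => by
      refine ((adicAbv_le_iff v _ _).2 (hxT v hv)).trans_lt ?_
      refine (hc ⟨v, hv⟩).trans_lt ((min_le_right _ _).trans_lt ?_)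
      linarith
    exact ⟨τ, hτ, fun v hv l => hεγ v hv _ (h1 v hv l), h2⟩

end main

end Vale.Agent.P011.H673.NS
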