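import Vale.Agent.P011.H699.Odd.NearL
import Vale.Agent.P011.H327.TowerZ

/-!
# The abstract tower lemma

`K` is a field, `W` a subgroup of `Kˣ` which contains the norms of the elements close to one of
enough finite separable extensions of `K`.  Then, by the two-field norm lemma (`TN`) along a tower
of cyclic steps of degree `p`, some power of exponent prime to `p` of every element of `K` close to
one is in `W`.
-/

open Module Polynomial

namespace Vale.Agent.P011.H673.NS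

open Vale.Agent.P011.H699.Odd (Near TN)

variable {K : Type} [Field K] {OT : Subring K}

/-- The norms from `E` of the elements close enough to one are in `W`. -/
def NormsIn (OT : Subring K) (W : Subgroup Kˣ) (E : Type) [Field E] [Algebra K E] : Prop :=
  ∃ d ∈ OT, d ≠ 0 ∧ ∀ z : E, z ≠ 0 → Near OT E d z → ∃ w ∈ W, (w : K) = Algebra.norm K z

/-- A good field for the label `j`: a finite separable extension with a primitive element whose
minimal polynomial splits at `j`, such that the norms of the elements close to one are in `W`. -/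
def GoodFor {J : Type} (OT : Subring K) (W : Subgroup Kˣ) (Sp : J → K[X] → Prop) (j : J) : Prop :=
  ∃ (E : Type) (_ : Field E) (_ : Algebra K E) (θ : E), FiniteDimensional K E ∧
    Algebra.IsSeparable K E ∧ IntermediateField.adjoin K {θ} = ⊤ ∧ Sp j (minpoly K θ) ∧
    NormsIn OT W E

variable {W : Subgroup Kˣ}

theorem norm_mem_up {E R : Type} [Field E] [Field R] [Algebra K E] [Algebra K R] [Algebra E R]
    [IsScalarTower K E R] [FiniteDimensional K E] [FiniteDimensional K R] {d : K} (hd : d ∈ OT)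
    (hd0 : d ≠ 0) (h : ∀ z : E, z ≠ 0 → Near OT E d z → ∃ w ∈ W, (w : K) = Algebra.norm K z)
    (z : R) (hz : z ≠ 0) (hn : Near OT R d z) : ∃ w ∈ W, (w : K) = Algebra.norm K z := by
  have : FiniteDimensional E R := FiniteDimensional.right K E R
  obtain ⟨w, hw, he⟩ := h (Algebra.norm E z) (Algebra.norm_ne_zero_iff.mpr hz)
    (hn.norm hd0 hd)
  exact ⟨w, hw, by rw [he, Algebra.norm_norm]⟩

theorem NormsIn.up {E R : Type} [Field E] [Field R] [Algebra K E] [Algebra K R] [Algebra E R]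
    [IsScalarTower K E R] [FiniteDimensional K E] [FiniteDimensional K R]
    (h : NormsIn OT W E) : NormsIn OT W R := by
  obtain ⟨d, hd, hd0, h⟩ := h
  exact ⟨d, hd, hd0, norm_mem_up hd hd0 h⟩

/-- **The step.** -/
theorem normsIn_step {J : Type} {Sp : J → K[X] → Prop} (hgood : ∀ j, GoodFor OT W Sp j)
    {R R' : Type} [Field R] [Algebra K R] [Field R'] [Algebra K R'] [Algebra R R']
    [IsScalarTower K R R'] [FiniteDimensional K R] [FiniteDimensional K R']
    (hTN : ∀ c ∈ OT, c ≠ 0 → ∃ c' ∈ OT, c' ≠ 0 ∧ TN OT Sp R R' c' c)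
    (h : NormsIn OT W R') : NormsIn OT W R := by
  obtain ⟨c, hc, hc0, hR'⟩ := h
  obtain ⟨c', hc', hc'0, hTN⟩ := hTN c hc hc0
  refine ⟨c', hc', hc'0, fun x hx hn => ?_⟩
  obtain ⟨j, hj⟩ := hTN x hx hn
  obtain ⟨E, i1, i2, θ, hf, -, hθ, hSp, d, hd, hd0, hE⟩ := hgood j
  let M := ((minpoly K θ).map (algebraMap K R)).SplittingField
  obtain ⟨x₁, y₁, hx₁, hy₁, hxy, hnx, hny⟩ := hj M (minpoly K θ) hSp
    (Polynomial.IsSplittingField.splittingField _) d hd0
  have : FiniteDimensional K M := FiniteDimensional.trans K R M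
  have hsplit : ((minpoly K θ).map (algebraMap K M)).Splits := by
    have h2 := (Polynomial.IsSplittingField.splits M ((minpoly K θ).map (algebraMap K R)))
    rwa [Polynomial.map_map, ← IsScalarTower.algebraMap_eq] at h2
  obtain ⟨φ⟩ : Nonempty (E →ₐ[K] M) := by
    refine IntermediateField.nonempty_algHom_of_adjoin_splits (S := {θ}) ?_ hθ
    intro s hs
    rw [Set.mem_singleton_iff] at hs
    subst hs
    exact ⟨IsIntegral.of_finite K s, hsplit⟩
  let i3 : Algebra E M := φ.toRingHom.toAlgebra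
  have i4 : IsScalarTower K E M := IsScalarTower.of_algebraMap_eq fun a => (φ.commutes a).symm
  obtain ⟨w₁, hw₁, he₁⟩ := hR' x₁ hx₁ hnx
  obtain ⟨w₂, hw₂, he₂⟩ := norm_mem_up hd hd0 hE y₁ hy₁ hny
  refine ⟨w₁ * w₂, mul_mem hw₁ hw₂, ?_⟩
  have : FiniteDimensional R R' := FiniteDimensional.right K R R'
  rw [hxy, map_mul, Algebra.norm_norm, Algebra.norm_norm, Units.val_mul, he₁, he₂]

open IntermediateField in
/-- **The abstract tower lemma.** -/
theorem atl {J : Type} [hJ : Nonempty J] {Sp : J → K[X] → Prop} {Ω : Type} [Field Ω] [Algebra K Ω]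
    [IsAlgClosed Ω] (hgood : ∀ j, GoodFor OT W Sp j) {p : ℕ}
    (Z : IntermediateField K Ω → Prop)
    (htow : ∀ E : IntermediateField K Ω, FiniteDimensional K E → Algebra.IsSeparable K E →
      ∀ Q : IntermediateField K Ω → Prop,
        (∀ R : IntermediateField K Ω, FiniteDimensional K R → Algebra.IsSeparable K R → E ≤ R →
          Q R) →
        (∀ (R R' : IntermediateField K Ω) (h : R ≤ R'), FiniteDimensional K R →
          FiniteDimensional K R' → Algebra.IsSeparable K R → Algebra.IsSeparable K R' → Z R →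
          IsGalois R (extendScalars h) → finrank R (extendScalars h) = p → Q R' → Q R) →
        ∃ R : IntermediateField K Ω, FiniteDimensional K R ∧ ¬ p ∣ finrank K R ∧ Q R)
    (hTN : ∀ (R R' : IntermediateField K Ω) (h : R ≤ R'), FiniteDimensional K R →
      FiniteDimensional K R' → Algebra.IsSeparable K R → Algebra.IsSeparable K R' → Z R →
      IsGalois R (extendScalars h) → finrank R (extendScalars h) = p →
      ∀ c ∈ OT, c ≠ 0 → ∃ c' ∈ OT, c' ≠ 0 ∧
        letI := (inclusion h).toRingHom.toAlgebra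
        TN OT Sp R R' c' c) :
    ∃ c ∈ OT, c ≠ 0 ∧ ∃ r : ℕ, ¬ p ∣ r ∧ ∀ x : Kˣ, Near OT K c (x : K) → x ^ r ∈ W := by
  obtain ⟨j⟩ := hJ
  obtain ⟨E, i1, i2, θ, hf, hs, -, -, hE⟩ := hgood j
  obtain ⟨φ⟩ : Nonempty (E →ₐ[K] Ω) := ⟨IsAlgClosed.lift⟩
  let e : E ≃ₐ[K] φ.fieldRange := AlgEquiv.ofInjectiveField φ
  have hf' : FiniteDimensional K φ.fieldRange := LinearEquiv.finiteDimensional e.toLinearEquiv
  have hs' : Algebra.IsSeparable K φ.fieldRange := AlgEquiv.Algebra.isSeparable e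
  obtain ⟨R, hRf, hpR, c, hc, hc0, hR⟩ := htow φ.fieldRange hf' hs' (fun R => NormsIn OT W R)
    (fun R hRf hRs hle => by
      let j1 : Algebra E R := ((inclusion hle).comp (e : E →ₐ[K] φ.fieldRange)).toRingHom.toAlgebra
      have j2 : IsScalarTower K E R := IsScalarTower.of_algebraMap_eq fun a =>
        (((inclusion hle).comp (e : E →ₐ[K] φ.fieldRange)).commutes a).symm
      exact hE.up)
    (fun R R' h hRf hRf' hRs hRs' hz hG hd hQ => by
      have h1 := hTN R R' h hRf hRf' hRs hRs' hz hG hd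
      let j1 : Algebra R R' := (inclusion h).toRingHom.toAlgebra
      have j2 : IsScalarTower K R R' := IsScalarTower.of_algebraMap_eq fun _ => rfl
      exact normsIn_step hgood h1 hQ)
  refine ⟨c, hc, hc0, finrank K R, hpR, fun x hx => ?_⟩
  obtain ⟨w, hw, he⟩ := hR (algebraMap K R x) ((_root_.map_ne_zero _).mpr x.ne_zero)
    (hx.map (Algebra.ofId K R))
  rw [Algebra.norm_algebraMap] at he
  have h2 : w = x ^ finrank K R := Units.ext (by rw [he, Units.val_pow_eq_pow_val])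
  rwa [← h2]

open IntermediateField in
/-- The tower lemma over fields which contain a primitive `p`-th root of unity. -/
theorem atlZ {J : Type} [hJ : Nonempty J] {Sp : J → K[X] → Prop} {Ω : Type} [Field Ω]
    [Algebra K Ω] [IsAlgClosed Ω] [Normal K Ω] (hgood : ∀ j, GoodFor OT W Sp j) {p : ℕ}
    (hp : p.Prime) {ζ : Ω} (hζ : IsPrimitiveRoot ζ p)
    (hTN : ∀ (R R' : IntermediateField K Ω) (h : R ≤ R'), FiniteDimensional K R →
      FiniteDimensional K R' → Algebra.IsSeparable K R → Algebra.IsSeparable K R' → ζ ∈ R →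
      IsGalois R (extendScalars h) → finrank R (extendScalars h) = p →
      ∀ c ∈ OT, c ≠ 0 → ∃ c' ∈ OT, c' ≠ 0 ∧
        letI := (inclusion h).toRingHom.toAlgebra
        TN OT Sp R R' c' c) :
    ∃ c ∈ OT, c ≠ 0 ∧ ∃ r : ℕ, ¬ p ∣ r ∧ ∀ x : Kˣ, Near OT K c (x : K) → x ^ r ∈ W := by
  have : Fact p.Prime := ⟨hp⟩
  refine atl (Ω := Ω) hgood (fun R => ζ ∈ R) (fun E hf hs Q h0 h1 => ?_) hTN
  obtain ⟨f, R, -, hRf, -, -, hpR, hQ⟩ := H327.Tower.towerZ_induction E p hζ (fun _ R => Q R)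
    (fun R a b c _ => h0 R a b c) (fun _ R R' h a b c d e f g hq => h1 R R' h a b c d e f g hq)
  exact ⟨R, hRf, hpR, hQ⟩

open IntermediateField in
/-- The tower lemma when no root of unity is needed. -/
theorem atlT {J : Type} [hJ : Nonempty J] {Sp : J → K[X] → Prop} {Ω : Type} [Field Ω]
    [Algebra K Ω] [IsAlgClosed Ω] [Normal K Ω] (hgood : ∀ j, GoodFor OT W Sp j) {p : ℕ}
    (hp : p.Prime)
    (hTN : ∀ (R R' : IntermediateField K Ω) (h : R ≤ R'), FiniteDimensional K R →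
      FiniteDimensional K R' → Algebra.IsSeparable K R → Algebra.IsSeparable K R' →
      IsGalois R (extendScalars h) → finrank R (extendScalars h) = p →
      ∀ c ∈ OT, c ≠ 0 → ∃ c' ∈ OT, c' ≠ 0 ∧
        letI := (inclusion h).toRingHom.toAlgebra
        TN OT Sp R R' c' c) :
    ∃ c ∈ OT, c ≠ 0 ∧ ∃ r : ℕ, ¬ p ∣ r ∧ ∀ x : Kˣ, Near OT K c (x : K) → x ^ r ∈ W := by
  have : Fact p.Prime := ⟨hp⟩
  refine atl (Ω := Ω) hgood (fun _ => True) (fun E hf hs Q h0 h1 => ?_)
    (fun R R' h a b c d _ e f => hTN R R' h a b c d e f)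
  obtain ⟨f, R, -, hRf, -, hpR, hQ⟩ := H327.Tower.tower_induction E p (fun _ R => Q R)
    h0 (fun _ R R' h a b c d e f hq => h1 R R' h a b c d trivial e f hq)
  exact ⟨R, hRf, hpR, hQ⟩

/-- **From the powers to the elements.** -/
theorem mem_of_atl {b : ℕ} (hb : b ≠ 0)
    (hpow : ∃ c ∈ OT, c ≠ 0 ∧ ∀ x : Kˣ, Near OT K c (x : K) → x ^ b ∈ W)
    (hatl : ∀ p : ℕ, p.Prime → p ∣ b →
      ∃ c ∈ OT, c ≠ 0 ∧ ∃ r : ℕ, ¬ p ∣ r ∧ ∀ x : Kˣ, Near OT K c (x : K) → x ^ r ∈ W) :
    ∃ c ∈ OT, c ≠ 0 ∧ ∀ x : Kˣ, Near OT K c (x : K) → x ∈ W := by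
  classical
  obtain ⟨c₀, hc₀, hc₀0, h0⟩ := hpow
  have hatl' : ∀ p : ℕ, ∃ c ∈ OT, c ≠ 0 ∧ (p.Prime → p ∣ b →
      ∃ r : ℕ, ¬ p ∣ r ∧ ∀ x : Kˣ, Near OT K c (x : K) → x ^ r ∈ W) := by
    intro p
    by_cases hp : p.Prime ∧ p ∣ b
    · obtain ⟨c, hc, hc0, h⟩ := hatl p hp.1 hp.2
      exact ⟨c, hc, hc0, fun _ _ => h⟩
    · exact ⟨1, one_mem _, one_ne_zero, fun h1 h2 => absurd ⟨h1, h2⟩ hp⟩
  choose c hc hc0 h using hatl'
  refine ⟨c₀ * ∏ p ∈ b.primeFactors, c p, mul_mem hc₀ (prod_mem fun p _ => hc p),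
    mul_ne_zero hc₀0 (Finset.prod_ne_zero_iff.mpr fun p _ => hc0 p), fun x hx => ?_⟩
  refine H327.Tower.mem_of_pow_mem W x (n := b)
    (h0 x (hx.mono (prod_mem fun p _ => hc p))) fun p hp hpb => ?_
  obtain ⟨r, hr, h1⟩ := h p hp hpb
  refine ⟨r, hr, h1 x ?_⟩
  have hpm : p ∈ b.primeFactors := Nat.mem_primeFactors.mpr ⟨hp, hpb, hb⟩
  have h2 : c₀ * ∏ q ∈ b.primeFactors, c q = c p * (c₀ * ∏ q ∈ b.primeFactors.erase p, c q) := by
    rw [← Finset.mul_prod_erase _ _ hpm]
    ring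
  rw [h2] at hx
  exact hx.mono (mul_mem hc₀ (prod_mem fun q _ => hc q))

end Vale.Agent.P011.H673.NS
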