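import Vale.Agent.P011.H673.NS.Bdd

/-!
# The norm of an algebra from a finite family of ultrametric absolute values of the centre
-/

open Module Polynomial
open scoped NNReal

namespace Vale.Agent.P011.H673.NS

open Vale.Agent.P011.H699.Odd (Near TN Itg abv_itg)

section

variable {K : Type} [Field K] {ι : Type} (a : ι → AbsoluteValue K ℝ)

/-- The elements which are integral for all the absolute values. -/
def OTa (ha : ∀ i x y, a i (x + y) ≤ max (a i x) (a i y)) : Subring K where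
  carrier := {x | ∀ i, a i x ≤ 1}
  mul_mem' := fun {x y} hx hy i => by
    rw [map_mul]
    exact mul_le_one₀ (hx i) ((a i).nonneg _) (hy i)
  one_mem' := fun i => by rw [map_one]
  add_mem' := fun {x y} hx hy i => (ha i x y).trans (max_le (hx i) (hy i))
  zero_mem' := fun i => by rw [map_zero]; exact zero_le_one
  neg_mem' := fun {x} hx i => by rw [AbsoluteValue.map_neg]; exact hx i

variable {a} (ha : ∀ i x y, a i (x + y) ≤ max (a i x) (a i y))

theorem mem_OTa {x : K} : x ∈ OTa a ha ↔ ∀ i, a i x ≤ 1 := Iff.rfl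

theorem otIn_of [Finite ι]
    (hsm : ∀ δ : ℝ, 0 < δ → ∃ d : K, d ≠ 0 ∧ ∀ i, a i d ≤ δ) : OTIn (OTa a ha) := by
  constructor
  · intro x
    obtain ⟨C, hC⟩ : ∃ C : ℝ, ∀ i, a i x ≤ C := by
      obtain ⟨C, hC⟩ := (Set.finite_range fun i => a i x).bddAbove
      exact ⟨C, fun i => hC ⟨i, rfl⟩⟩
    have hC1 : 0 < max C 1 := lt_max_of_lt_right one_pos
    obtain ⟨d, hd0, hd⟩ := hsm (min 1 (1 / max C 1)) (lt_min one_pos (by positivity))
    refine ⟨d, fun i => (hd i).trans (min_le_left _ _), hd0, fun i => ?_⟩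
    rw [map_mul]
    calc a i d * a i x ≤ (1 / max C 1) * max C 1 :=
          mul_le_mul ((hd i).trans (min_le_right _ _)) ((hC i).trans (le_max_left _ _))
            ((a i).nonneg _) (by positivity)
      _ = 1 := by field_simp
  · intro x hx i
    obtain ⟨p, hp, hpx⟩ := hx
    exact abv_itg (OT := OTa a ha) (D := K) (a i) (ha i) (fun c hc => hc i) ⟨p, hp, hpx⟩

/-- Elements close to one for the absolute values. -/
theorem near_of {c x : K} (hc : c ≠ 0) (h : ∀ i, a i (x - 1) ≤ a i c) :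
    Near (OTa a ha) K c x := by
  have hm : (x - 1) / c ∈ OTa a ha := by
    intro i
    rw [map_div₀]
    exact div_le_one_of_le₀ (h i) ((a i).nonneg _)
  refine ⟨(x - 1) / c, ?_, ?_⟩
  · exact Itg.alg (OT := OTa a ha) (R := K) hm
  · change x = 1 + c * ((x - 1) / c)
    rw [mul_div_cancel₀ _ hc]
    ring

variable {B : Type} [Ring B] [Algebra K B] {κ : Type} [Fintype κ] [DecidableEq κ]

section

variable [Fintype ι] (a) (β : Basis κ K B)

/-- The operator norm. -/
noncomputable def nrF (x : B) : ℝ≥0 :=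
  Finset.univ.sup fun t : ι × κ × κ =>
    (⟨a t.1 (Algebra.leftMulMatrix β x t.2.1 t.2.2), (a t.1).nonneg _⟩ : ℝ≥0)

/-- The operator norm, as a real number. -/
noncomputable def nrR (x : B) : ℝ := (nrF a β x : ℝ)

theorem nrR_le_iff (x : B) {C : ℝ} (hC : 0 ≤ C) :
    nrR a β x ≤ C ↔ ∀ i k l, a i (Algebra.leftMulMatrix β x k l) ≤ C := by
  lift C to ℝ≥0 using hC
  unfold nrR nrF
  rw [NNReal.coe_le_coe]
  refine Iff.trans Finset.sup_le_iff ?_
  constructor
  · intro h i k l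
    exact h (i, k, l) (Finset.mem_univ _)
  · intro h t _
    exact h t.1 t.2.1 t.2.2

theorem nrR_nonneg (x : B) : 0 ≤ nrR a β x := NNReal.coe_nonneg _

theorem le_nrR (x : B) (i : ι) (k l : κ) :
    a i (Algebra.leftMulMatrix β x k l) ≤ nrR a β x :=
  (nrR_le_iff a β x (nrR_nonneg a β x)).1 le_rfl i k l

theorem abv_sum_le' (μ : AbsoluteValue K ℝ) (hμ : ∀ x y, μ (x + y) ≤ max (μ x) (μ y)) {σ : Type*}
    (s : Finset σ) (f : σ → K) {C : ℝ} (hC : 0 ≤ C) (h : ∀ i ∈ s, μ (f i) ≤ C) :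
    μ (∑ i ∈ s, f i) ≤ C := by
  classical
  induction s using Finset.induction_on with
  | empty => rw [Finset.sum_empty, map_zero]; exact hC
  | insert a s ha ih =>
    rw [Finset.sum_insert ha]
    exact (hμ _ _).trans (max_le (h a (Finset.mem_insert_self a s))
      (ih fun i hi => h i (Finset.mem_insert_of_mem hi)))

include ha in
theorem nrOT_of (hsm : ∀ δ : ℝ, 0 < δ → ∃ d : K, d ≠ 0 ∧ ∀ i, a i d ≤ δ) :
    NrOT (OTa a ha) (nrR a β) := by
  refine ⟨nrR_nonneg a β, ?_, fun x => ?_, fun x y => ?_, fun x y => ?_, fun c hc x => ?_,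
    fun δ hδ => ?_⟩
  · refine le_antisymm ((nrR_le_iff a β 0 le_rfl).2 fun i k l => ?_) (nrR_nonneg a β 0)
    rw [map_zero, Matrix.zero_apply, map_zero]
  · refine le_antisymm ((nrR_le_iff a β _ (nrR_nonneg a β x)).2 fun i k l => ?_)
      ((nrR_le_iff a β _ (nrR_nonneg a β (-x))).2 fun i k l => ?_)
    · rw [map_neg, Matrix.neg_apply, AbsoluteValue.map_neg]
      exact le_nrR a β x i k l
    · have h1 := le_nrR a β (-x) i k l
      rwa [map_neg, Matrix.neg_apply, AbsoluteValue.map_neg] at h1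
  · refine (nrR_le_iff a β _ (le_max_of_le_left (nrR_nonneg a β x))).2 fun i k l => ?_
    rw [map_add, Matrix.add_apply]
    exact (ha i _ _).trans (max_le_max (le_nrR a β x i k l) (le_nrR a β y i k l))
  · refine (nrR_le_iff a β _ (mul_nonneg (nrR_nonneg a β x) (nrR_nonneg a β y))).2
      fun i k l => ?_
    rw [map_mul, Matrix.mul_apply]
    refine abv_sum_le' (a i) (ha i) _ _ (mul_nonneg (nrR_nonneg a β x) (nrR_nonneg a β y))
      fun m _ => ?_
    rw [map_mul]
    exact mul_le_mul (le_nrR a β x i k m) (le_nrR a β y i m l) ((a i).nonneg _)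
      (nrR_nonneg a β x)
  · refine (nrR_le_iff a β _ (nrR_nonneg a β x)).2 fun i k l => ?_
    rw [map_smul, Matrix.smul_apply, smul_eq_mul, map_mul]
    calc a i c * a i (Algebra.leftMulMatrix β x k l)
        ≤ 1 * a i (Algebra.leftMulMatrix β x k l) :=
          mul_le_mul_of_nonneg_right (hc i) ((a i).nonneg _)
      _ = a i (Algebra.leftMulMatrix β x k l) := one_mul _
      _ ≤ nrR a β x := le_nrR a β x i k l
  · obtain ⟨d, hd0, hd⟩ := hsm (min 1 δ) (lt_min one_pos hδ)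
    refine ⟨d, fun i => (hd i).trans (min_le_left _ _), hd0, fun x => ?_⟩
    refine (nrR_le_iff a β _ (mul_nonneg hδ.le (nrR_nonneg a β x))).2 fun i k l => ?_
    rw [map_smul, Matrix.smul_apply, smul_eq_mul, map_mul]
    exact mul_le_mul ((hd i).trans (min_le_right _ _)) (le_nrR a β x i k l) ((a i).nonneg _) hδ.le

include ha in
/-- The coordinates are bounded by the operator norm. -/
theorem exists_coord : ∃ C : ℝ, 0 < C ∧ ∀ (x : B) (i : ι) (k : κ),
    a i (β.repr x k) ≤ C * nrR a β x := by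
  refine ⟨1 + ∑ i, ∑ l, a i (β.repr 1 l), ?_, fun x i k => ?_⟩
  · exact add_pos_of_pos_of_nonneg one_pos (Finset.sum_nonneg fun i _ =>
      Finset.sum_nonneg fun l _ => (a i).nonneg _)
  · have h1 := congrFun (Algebra.leftMulMatrix_mulVec_repr β x 1) k
    rw [mul_one] at h1
    rw [← h1]
    have hS : ∀ l, a i (β.repr 1 l) ≤ 1 + ∑ i, ∑ l, a i (β.repr 1 l) := by
      intro l
      have h2 : a i (β.repr 1 l) ≤ ∑ l, a i (β.repr 1 l) :=
        Finset.single_le_sum (f := fun l => a i (β.repr 1 l)) (fun l _ => (a i).nonneg _)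
          (Finset.mem_univ l)
      have h3 : ∑ l, a i (β.repr 1 l) ≤ ∑ i, ∑ l, a i (β.repr 1 l) :=
        Finset.single_le_sum (f := fun i => ∑ l, a i (β.repr 1 l))
          (fun i _ => Finset.sum_nonneg fun l _ => (a i).nonneg _) (Finset.mem_univ i)
      linarith
    have hC0 : 0 ≤ 1 + ∑ i, ∑ l, a i (β.repr 1 l) := ((a i).nonneg _).trans (hS k)
    refine abv_sum_le' (a i) (ha i) _ _ (mul_nonneg hC0 (nrR_nonneg a β x)) fun l _ => ?_
    rw [map_mul, mul_comm]
    exact mul_le_mul (hS l) (le_nrR a β x i k l) ((a i).nonneg _) hC0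

end

end

section

variable {K : Type} [Field K] {ι : Type} [Fintype ι] {a : ι → AbsoluteValue K ℝ}
  (ha : ∀ i x y, a i (x + y) ≤ max (a i x) (a i y))

/-- **Every element of the centre close to one is the reduced norm of an element whose coordinates
are close to those of one.** -/
theorem ns_fam (hsm : ∀ δ : ℝ, 0 < δ → ∃ d : K, d ≠ 0 ∧ ∀ i, a i d ≤ δ) {J : Type}
    {Sp : J → K[X] → Prop} {B : Type} [DivisionRing B] [Algebra K B] [FiniteDimensional K B]
    {κ : Type} [Fintype κ] (β : Basis κ K B) {b : ℕ} (hb : b ≠ 0) {N : B →* K} (hN : RnN b N)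
    (hatl : ∀ W : Subgroup Kˣ, (∀ j, GoodFor (OTa a ha) W Sp j) → ∀ p : ℕ, p.Prime → p ∣ b →
      ∃ c ∈ OTa a ha, c ≠ 0 ∧ ∃ r : ℕ, ¬ p ∣ r ∧ ∀ x : Kˣ, Near (OTa a ha) K c (x : K) →
        x ^ r ∈ W)
    (hspl : ∀ j : J, ∃ t : B, (minpoly K t).natDegree = b ∧ (minpoly K t).Separable ∧
      Sp j (minpoly K t)) {ε : ℝ} (hε : 0 < ε) :
    ∃ δ : ℝ, 0 < δ ∧ ∀ x : K, x ≠ 0 → (∀ i, a i (x - 1) < δ) →
      ∃ τ : B, τ ≠ 0 ∧ (∀ i k, a i (β.repr (τ - 1) k) < ε) ∧ N τ = x := by
  classical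
  obtain ⟨C, hC, hcoord⟩ := exists_coord (a := a) ha β
  obtain ⟨c, hc, hc0, h⟩ := ns_of (nrOT_of a ha β hsm) (otIn_of ha hsm) hb hN hatl hspl
    (ε := ε / C) (by positivity)
  obtain ⟨δ, hδ, hδc⟩ : ∃ δ : ℝ, 0 < δ ∧ ∀ i, δ ≤ a i c := by
    rcases isEmpty_or_nonempty ι with hι | hι
    · exact ⟨1, one_pos, fun i => (hι.false i).elim⟩
    · obtain ⟨i, hi⟩ := Finite.exists_min fun i => a i c
      exact ⟨a i c, (a i).pos hc0, hi⟩
  refine ⟨δ, hδ, fun x hx hnx => ?_⟩
  obtain ⟨τ, hτ, hτε, hNτ⟩ := h x hx (near_of ha hc0 fun i => (hnx i).le.trans (hδc i))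
  refine ⟨τ, hτ, fun i k => ?_, hNτ⟩
  calc a i (β.repr (τ - 1) k) ≤ C * nrR a β (τ - 1) := hcoord _ i k
    _ < C * (ε / C) := mul_lt_mul_of_pos_left hτε hC
    _ = ε := by field_simp

end

end Vale.Agent.P011.H673.NS
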