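import Vale.Agent.P011.H673.NS.Fam
import Vale.Agent.P011.H327.RnInst
import Vale.Agent.P011.H738.Atl.Fin
import Vale.Agent.P011.H775.Odd.TopFF
import Vale.Agent.P011.H74.Odd.IntT
import Vale.Agent.P011.Hey.Fin0
import Vale.Agent.P011.H380.Good7.SplitMaxF

/-!
# Reduced norms of elements close to one over function fields

Let `C` be a central division algebra of degree `b` over a global function field `K` and let `T` be
a finite set of places of `K` such that `C` has separable maximal subfields which split completely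
at any finite set of places outside `T`.  Every element of `K` close to one at `T` is the reduced
norm of an element of `C` close to one at `T`.  (Every characteristic, every degree.)
-/

open Module Polynomial

set_option linter.unusedSectionVars false

namespace Vale.Agent.P011.H673.NS

open Vale.Agent.P011.H738 Vale.Agent.P011.H271 Vale.Agent.P011.H271.S3 Vale.Agent.P011.H973.PF
open Vale.Agent.P011.H511.FF Vale.Agent.P011.H738.Atl
open Vale.Agent.P011.W (HasNrd Spl deg_pos)
open Vale.Agent.P011.H505.Wang (hasNrd_norm)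
open Vale.Agent.P011.H699.Odd (Near)
open Vale.Agent.P011.H327.TN (exists_hasNrd)
open Vale.Agent.P011.H775.Top (avF exists_small_ff)

section rn

variable {K D : Type} [Field K] [Infinite K] [DivisionRing D] [Algebra K D]
  [FiniteDimensional K D] [Algebra.IsCentral K D] {n : ℕ}

/-- **The reduced norm as a homomorphism of monoids.** -/
theorem exists_rnN_ff (hdeg : finrank K D = n ^ 2) :
    ∃ N : D →* K, RnN n N ∧ ∀ x, HasNrd K n x (N x) := by
  choose N0 hN0 using fun w : D => exists_hasNrd (K := K) (D := D) hdeg w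
  have huniq : ∀ (x : D) (y : K), HasNrd K n x y → N0 x = y := fun x y h =>
    W.HasNrd.unique hdeg (hN0 x) h
  let N : D →* K :=
    { toFun := N0
      map_one' := huniq 1 1 (fun Ω _ _ f => by rw [map_one, Matrix.det_one, map_one])
      map_mul' := fun x y => huniq _ _ ((hN0 x).mul (hN0 y)) }
  refine ⟨N, ⟨fun a => huniq _ _ ?_, fun E _ _ φ y hE => huniq _ _ (hasNrd_norm hdeg hE φ y)⟩,
    hN0⟩
  intro Ω _ _ f
  rw [AlgHom.commutes]
  change (Matrix.scalar (Fin n) (algebraMap K Ω a)).det = _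
  rw [Matrix.scalar_apply, Matrix.det_diagonal, Finset.prod_const, Finset.card_univ,
    Fintype.card_fin, map_pow]

end rn

section ff

variable {K : Type} [Field K]

theorem aF_ult (T : Finset (Place K)) (v : T) (x y : K) :
    avF T v (x + y) ≤ max (avF T v x) (avF T v y) := v.1.nonarch x y

theorem OTa_aF (T : Finset (Place K)) :
    OTa (avF T) (aF_ult T) = H74.Odd.OT (T : Set (Place K)) := by
  ext x
  exact ⟨fun h v hv => h ⟨v, hv⟩, fun h v => h v.1 v.2⟩

theorem exists_small_avF (T : Finset (Place K)) {δ : ℝ} (hδ : 0 < δ) :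
    ∃ d : K, d ≠ 0 ∧ ∀ v : T, avF T v d ≤ δ := by
  classical
  obtain ⟨q, hq0, hq⟩ := exists_small_ff T
  choose m hm using fun v : T => exists_pow_lt_of_lt_one hδ (hq v)
  refine ⟨q ^ (Finset.univ.sup m), pow_ne_zero _ hq0, fun v => ?_⟩
  rw [map_pow]
  exact ((pow_le_pow_of_le_one ((avF T v).nonneg _) (hq v).le
    (Finset.le_sup (Finset.mem_univ v))).trans_lt (hm v)).le

end ff

section main

variable {K C : Type} [Field K] [GFF K] [DivisionRing C] [Algebra K C]
  [FiniteDimensional K C] [Algebra.IsCentral K C] {b : ℕ}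

/-- The norms from the maximal subfields. -/
theorem gd_of {nr : C → ℝ} {T : Finset (Place K)} (h : NrOT (OTa (avF T) (aF_ult T)) nr)
    (hO : OTIn (OTa (avF T) (aF_ult T))) {N : C →* K} (hN : RnN b N) {ε : ℝ} (hε : 0 < ε)
    (hε1 : ε ≤ 1) {M : Type} [Field M] [Algebra K M] [FiniteDimensional K M]
    [Algebra.IsSeparable K M] (hM : finrank K M = b) (φ : M →ₐ[K] C) :
    Gd (k := K) (P := K) (T : Set (Place K)) ((Vε h hε hε1).map (Units.map N)) M := by
  classical
  have : GFF M := Hey.H63.gff_of_finite (k := K)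
  obtain ⟨d, hd, hd0, hn⟩ := h.near hO φ hε
  have hf := above_finite (k := K) (K := M) T.finite_toSet
  obtain ⟨m, hm, hml⟩ := exists_lb hf.toFinset (fun w : Place M => w.abv (algebraMap K M d))
    fun w _ => w.abv.pos ((_root_.map_ne_zero _).2 hd0)
  refine ⟨m, hm, fun y hy hny => ?_⟩
  have hnear : Near (OTa (avF T) (aF_ult T)) M d y := by
    rw [OTa_aF]
    refine (H74.Odd.near_iff hd0 y).2 fun v hv w hw => ?_
    exact (hny v hv w hw).le.trans (hml w (hf.mem_toFinset.2 ⟨v, hv, av_of_ab hw⟩))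
  have hφ : φ y ≠ 0 := (_root_.map_ne_zero _).mpr hy
  refine ⟨Units.map N (Units.mk0 (φ y) hφ), Subgroup.mem_map.mpr ⟨Units.mk0 (φ y) hφ, ?_, rfl⟩,
    ?_⟩
  · change nr (((Units.mk0 (φ y) hφ : Cˣ) : C) - 1) < ε
    rw [Units.val_mk0]
    exact hn y hnear
  · rw [Units.coe_map, Units.val_mk0]
    exact hN.fld M φ y hM

/-- **(NS), function fields.** -/
theorem ns_ff_of (hC : finrank K C = b ^ 2) {κ : Type} [Fintype κ]
    (β : Basis κ K C) (T : Finset (Place K))
    (hmax : ∀ V : Set (Place K), V.Finite → Disjoint V (T : Set (Place K)) →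
      ∃ t : C, (minpoly K t).natDegree = b ∧ (minpoly K t).Separable ∧
        ∀ v ∈ V, ((minpoly K t).map (algebraMap K v.comp)).Splits)
    {ε : ℝ} (hε : 0 < ε) :
    ∃ δ : ℝ, 0 < δ ∧ ∀ x : K, x ≠ 0 → (∀ v ∈ T, v.abv (x - 1) < δ) →
      ∃ τ : C, τ ≠ 0 ∧ (∀ v ∈ T, ∀ l, v.abv (β.repr (τ - 1) l) < ε) ∧ HasNrd K b τ x := by
  classical
  have hinf : Infinite K := Hey.gff_infinite K
  obtain ⟨Nm, hNm, hNrd⟩ := exists_rnN_ff hC
  have hnr := nrOT_of (a := avF T) (aF_ult T) β (fun δ hδ => exists_small_avF T hδ)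
  have hO := otIn_of (a := avF T) (aF_ult T) (fun δ hδ => exists_small_avF T hδ)
  obtain ⟨Cc, hCc, hcoord⟩ := exists_coord (a := avF T) (aF_ult T) β
  have hη : 0 < min (ε / Cc) 1 := lt_min (by positivity) one_pos
  set W : Subgroup Kˣ := (Vε hnr hη (min_le_right _ _)).map (Units.map Nm) with hW
  -- the field of an element of degree `b`
  have hfield : ∀ t : C, (minpoly K t).natDegree = b → (minpoly K t).Separable →
      ∃ (M : Type) (_ : Field M) (_ : Algebra K M) (θ : M), FiniteDimensional K M ∧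
        Algebra.IsSeparable K M ∧ Algebra.adjoin K {θ} = ⊤ ∧ minpoly K θ = minpoly K t ∧
        Gd (k := K) (P := K) (T : Set (Place K)) W M := by
    intro t hdeg hsep
    have hint : IsIntegral K t := IsIntegral.of_finite K t
    have hirr : Irreducible (minpoly K t) := minpoly.irreducible hint
    have hfact : Fact (Irreducible (minpoly K t)) := ⟨hirr⟩
    have hne : minpoly K t ≠ 0 := hirr.ne_zero
    let E := AdjoinRoot (minpoly K t)
    let θ : E := AdjoinRoot.root (minpoly K t)
    have hE : FiniteDimensional K E := (AdjoinRoot.powerBasis hne).finite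
    have hfr : finrank K E = b := by
      rw [(AdjoinRoot.powerBasis hne).finrank, AdjoinRoot.powerBasis_dim, hdeg]
    have hθm : minpoly K θ = minpoly K t := by
      have h1 := AdjoinRoot.minpoly_root hne
      rw [(minpoly.monic hint).leadingCoeff, inv_one, C_1, mul_one] at h1
      exact h1
    have hθ : Algebra.adjoin K ({θ} : Set E) = ⊤ := AdjoinRoot.adjoinRoot_eq_top
    have hθ' : IntermediateField.adjoin K {θ} = ⊤ := by
      rw [eq_top_iff]
      intro x _
      have h2 : x ∈ Algebra.adjoin K ({θ} : Set E) := by rw [hθ]; trivial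
      exact IntermediateField.algebra_adjoin_le_adjoin K _ h2
    have hsE : Algebra.IsSeparable K E := by
      have h1 : IsSeparable K θ := by unfold IsSeparable; rw [hθm]; exact hsep
      have h2 : Algebra.IsSeparable K (IntermediateField.adjoin K {θ}) :=
        (IntermediateField.isSeparable_adjoin_simple_iff_isSeparable (F := K) (E := E)).mpr h1
      rw [hθ'] at h2
      exact AlgEquiv.Algebra.isSeparable (IntermediateField.topEquiv (F := K) (E := E))
    have hker : ∀ a : K[X], a ∈ Ideal.span {minpoly K t} → aeval t a = 0 := by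
      intro a ha
      obtain ⟨c, rfl⟩ := Ideal.mem_span_singleton'.1 ha
      rw [map_mul, minpoly.aeval, mul_zero]
    let φ : E →ₐ[K] C := Ideal.Quotient.liftₐ _ (aeval t) hker
    exact ⟨E, inferInstance, inferInstance, θ, hE, hsE, hθ, hθm,
      gd_of hnr hO hNm hη (min_le_right _ _) hfr φ⟩
  have hGF : GF (k := K) (P := K) (T : Set (Place K)) W := by
    intro V hV hVT
    obtain ⟨t, hdeg, hsep, hspl⟩ := hmax V hV hVT
    obtain ⟨M, i1, i2, θ, hM, hsM, hθ, hθm, ε', hε', hG⟩ := hfield t hdeg hsep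
    refine ⟨M, i1, i2, i2, θ, ∅, ε', inferInstance, hM, hsM, hθ, fun v hv => ?_,
      Set.finite_empty, Set.disjoint_empty V, hε', fun y hy hny => ?_⟩
    · rw [hθm]
      exact hspl v hv
    · rw [Set.union_empty] at hny
      exact hG y hy hny
  obtain ⟨t, hdeg, hsep, -⟩ := hmax ∅ Set.finite_empty (Set.empty_disjoint _)
  obtain ⟨M, i1, i2, θ, hM, hsM, -, -, hG⟩ := hfield t hdeg hsep
  obtain ⟨δ, hδ, hbW⟩ := descent' (k := K) (P := K) T.finite_toSet hGF hG
  refine ⟨δ, hδ, fun x hx hxT => ?_⟩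
  have hnx : NrF (k := K) (X := K) (T : Set (Place K)) δ x := by
    intro v hv w hw
    have h1 : Ab w w := ⟨1, one_pos, fun x => by rw [Real.rpow_one]; rfl⟩
    have h2 : w = v := (av_of_ab h1).unique (av_of_ab hw)
    rw [h2]
    exact hxT v hv
  obtain ⟨τ, hτ, he⟩ := Subgroup.mem_map.mp (hbW (Units.mk0 x hx) hnx)
  have he' : Nm (τ : C) = x := by
    have h1 := congrArg Units.val he
    rwa [Units.coe_map, Units.val_mk0] at h1
  refine ⟨τ, τ.ne_zero, fun v hv l => ?_, he' ▸ hNrd τ⟩
  have hτ' : nrR (avF T) β ((τ : C) - 1) < ε / Cc := lt_of_lt_of_le hτ (min_le_left _ _)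
  calc v.abv (β.repr ((τ : C) - 1) l) ≤ Cc * nrR (avF T) β ((τ : C) - 1) :=
        hcoord _ ⟨v, hv⟩ l
    _ < Cc * (ε / Cc) := mul_lt_mul_of_pos_left hτ' hCc
    _ = ε := by field_simp

/-- **(NS), function fields, every characteristic, every degree.** -/
theorem ns_ff (hC : finrank K C = b ^ 2) {κ : Type} [Fintype κ]
    (β : Basis κ K C) (T : Finset (Place K))
    (hT : ∀ v : Place K, v ∉ T → Spl C b (algebraMap K v.comp)) {ε : ℝ} (hε : 0 < ε) :
    ∃ δ : ℝ, 0 < δ ∧ ∀ x : K, x ≠ 0 → (∀ v ∈ T, v.abv (x - 1) < δ) →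
      ∃ τ : C, τ ≠ 0 ∧ (∀ v ∈ T, ∀ l, v.abv (β.repr (τ - 1) l) < ε) ∧ HasNrd K b τ x := by
  refine ns_ff_of hC β T (fun V hV hVT => ?_) hε
  obtain ⟨t, h1, h2, h3⟩ := Vale.Agent.P011.H380.Good7.exists_split_maxF hC hV.toFinset
    (fun v hv => hT v fun h => Set.disjoint_left.1 hVT (hV.mem_toFinset.1 hv) h)
  exact ⟨t, h1, h2, fun v hv => (h3 v (hV.mem_toFinset.2 hv)).1⟩

end main

end Vale.Agent.P011.H673.NS
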